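import Vale.Agent.P033.Odd

/-! The circulant Hadamard conjecture. -/

namespace Vale.Agent.P033

open Finset

lemma had_of_auto {m : ℕ} (g : Fin (m + 1) → ℤ)
    (hg : ∀ t, ∑ l, g (l + t) * g l = if t = 0 then (m + 1 : ℤ) else 0) :
    Had (m + 1) (fun k => g (Fin.ofNat (m + 1) k)) := by
  intro A _ r hr
  have e : ∀ x : A, ev (fun k => g (Fin.ofNat (m + 1) k)) (m + 1) x =
      ∑ k : Fin (m + 1), (g k : A) * x ^ (k : ℕ) := by
    intro x
    rw [ev, ← Fin.sum_univ_eq_sum_range (fun k => (g (Fin.ofNat (m + 1) k) : A) * x ^ k)]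
    simp
  have h1 : ∀ l t : Fin (m + 1), r ^ ((l + t : Fin (m + 1)) : ℕ) * (r ^ m) ^ (l : ℕ) = r ^ (t : ℕ) := by
    intro l t
    rw [Fin.val_add, ← pow_eq_pow_mod _ hr, pow_add, mul_right_comm, ← mul_pow, ← pow_succ', hr,
      one_pow, one_mul]
  rw [e, e, sum_mul_sum, sum_comm]
  have h2 : ∀ l : Fin (m + 1), ∑ k : Fin (m + 1), (g k : A) * r ^ (k : ℕ) *
      ((g l : A) * (r ^ (m + 1 - 1)) ^ (l : ℕ)) = ∑ t, ((g (l + t) * g l : ℤ) : A) * r ^ (t : ℕ) := by
    intro l
    rw [← Equiv.sum_comp (Equiv.addLeft l)]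
    refine sum_congr rfl fun t _ => ?_
    rw [← h1 l t]
    simp only [Equiv.coe_addLeft, Nat.add_sub_cancel]
    push_cast
    ring
  simp only [h2]
  rw [sum_comm]
  simp only [← sum_mul, ← Int.cast_sum, hg]
  simp

theorem order_eq {m : ℕ} (g : Fin (m + 1) → ℤ) (hodd : ∀ k, Odd (g k))
    (hg : ∀ t, ∑ l, g (l + t) * g l = if t = 0 then (m + 1 : ℤ) else 0) :
    m + 1 = 1 ∨ m + 1 = 4 := by
  have h := had_of_auto g hg
  by_cases hm : m = 0
  · left; omega
  right
  have heven : (m + 1) % 2 = 0 := by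
    have h1 := hg (Fin.last m)
    rw [if_neg (by simpa using hm)] at h1
    have h2 := odd_sum (fun l => g (Fin.ofNat (m + 1) l + Fin.last m) * g (Fin.ofNat (m + 1) l))
      (m + 1) fun t _ => (hodd _).mul (hodd _)
    rw [← Fin.sum_univ_eq_sum_range
      (fun l => g (Fin.ofNat (m + 1) l + Fin.last m) * g (Fin.ofNat (m + 1) l))] at h2
    simp only [Fin.ofNat_val_eq_self, h1] at h2
    omega
  have h1 := h ℤ 1 (one_pow _)
  rw [one_pow] at h1
  generalize ev _ _ (1 : ℤ) = s at h1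
  have h2 : s.natAbs * s.natAbs = m + 1 := by
    rw [← Int.natAbs_mul, h1, Int.natAbs_natCast]
  obtain ⟨b, u, hu, hs⟩ := Nat.exists_eq_two_pow_mul_odd (n := s.natAbs)
    (by intro h0; rw [h0] at h2; omega)
  have h3 : m + 1 = 4 ^ b * (u * u) := by
    rw [← h2, hs, show 4 = 2 * 2 from rfl, mul_pow]; ring
  have hw : Odd (u * u) := hu.mul hu
  have hc : ∀ k, Odd ((fun k => g (Fin.ofNat (m + 1) k)) k) := fun k => hodd _
  generalize (fun k => g (Fin.ofNat (m + 1) k)) = c at h hc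
  generalize u * u = w at *
  rw [h3] at h heven ⊢
  have hw0 := hw.pos
  match b with
  | 0 =>
    have := Nat.odd_iff.mp hw
    omega
  | 1 =>
    by_contra hne
    exact not_four_mul hw (by omega) (by simpa using h) fun k _ => hc k
  | b + 2 =>
    exact (not_sixteen hw (by omega) c (fun k _ => hc k)
      fun x hx => h.inv (by positivity) hx).elim

end Vale.Agent.P033
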