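import Vale.Agent.P033.Two

/-! The case of order four times an odd number. -/

namespace Vale.Agent.P033

open Finset Polynomial

/-- The group ring identity. -/
def Had (n : ℕ) (c : ℕ → ℤ) : Prop :=
  ∀ (A : Type) [CommRing A] (r : A), r ^ n = 1 → ev c n r * ev c n (r ^ (n - 1)) = n

lemma Had.poly {n : ℕ} {c : ℕ → ℤ} (h : Had n c) :
    ∃ q : ℤ[X], ev c n X * ev c n (X ^ (n - 1)) = (n : ℤ[X]) + (X ^ n - 1) * q := by
  have h1 := h (ℤ[X] ⧸ Ideal.span {(X ^ n - 1 : ℤ[X])}) (Ideal.Quotient.mk _ X) (by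
    rw [← map_pow, ← sub_eq_zero, ← map_one (Ideal.Quotient.mk _), ← map_sub,
      Ideal.Quotient.eq_zero_iff_mem]
    exact Ideal.mem_span_singleton_self _)
  have h2 : ev c n X * ev c n (X ^ (n - 1)) - (n : ℤ[X]) ∈ Ideal.span {(X ^ n - 1 : ℤ[X])} := by
    rw [← Ideal.Quotient.eq_zero_iff_mem, map_sub, map_natCast, ← h1, sub_eq_zero]
    simp [ev, map_sum]
  obtain ⟨q, hq⟩ := Ideal.mem_span_singleton.mp h2
  exact ⟨q, by rw [← hq]; ring⟩

lemma pow_pred_eq_inv {L : Type} [Field L] {n : ℕ} (hn : 0 < n) {x : L} (hx : x ^ n = 1) :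
    x ^ (n - 1) = x⁻¹ :=
  eq_inv_of_mul_eq_one_left (by rw [pow_sub_one_mul hn.ne', hx])

lemma Had.inv {n : ℕ} {c : ℕ → ℤ} (h : Had n c) (hn : 0 < n) {x : ℂ} (hx : x ^ n = 1) :
    ev c n x * ev c n x⁻¹ = n := by
  rw [← pow_pred_eq_inv hn hx]; exact h ℂ x hx

section
variable {Γ : Type} [LinearOrderedCommGroupWithZero Γ] (v : Valuation ℂ Γ)

/-- The key local lemma. -/
lemma Had.link {n : ℕ} {c : ℕ → ℤ} (h : Had n c) (hn : 0 < n) {p : ℕ} (hp : p.Prime)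
    (hv : v (p : ℂ) < 1) {ζ β : ℂ} (h1 : ζ ^ p = 1) (h2 : ζ ≠ 1) (hβ : β ^ n = 1) :
    One v (ev c n (β * ζ) / ev c n β) := by
  have he : ∀ x : ℂ, (ev c n (X : ℂ[X])).eval x = ev c n x := by
    intro x; simp [ev, eval_finsetSum]
  have hn' : (n : ℂ) ≠ 0 := by exact_mod_cast hn.ne'
  have hβ1 := v_root v hn hβ
  have hβ0 : β ≠ 0 := by rintro rfl; simp at hβ1
  rw [← he, ← he]
  refine one_of_roots _ (fun h0 => ?_) _ _ fun ρ hρ => ?_
  · have := h.inv hn hβ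
    rw [← he β, h0] at this
    exact hn' (by simpa using this.symm)
  by_contra hle
  have h3 : v (ρ / β - 1) ≤ v (ζ - 1) := by
    rw [show β * ζ - β = β * (ζ - 1) by ring, map_mul, hβ1, one_mul, v.map_sub_swap β ρ] at hle
    rw [show ρ / β - 1 = (ρ - β) / β by field_simp, map_div₀, hβ1, div_one]
    exact not_lt.mp hle
  have h4 := v_pow_n v hp hv h1 h2 h3 hn
  rw [div_pow, hβ, div_one] at h4
  have h5 : v ρ ≤ 1 := by
    have : One v (ρ / β) := h3.trans_lt (v_zeta_lt v hp hv h1)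
    have := this.eq
    rw [map_div₀, hβ1, div_one] at this
    exact this.le
  obtain ⟨q, hq⟩ := h.poly
  have h6 := congrArg (aeval ρ) hq
  rw [he] at hρ
  rw [map_mul, aeval_ev, aeval_X, hρ, zero_mul] at h6
  simp only [map_add, map_natCast, map_mul, map_sub, map_pow, aeval_X, map_one] at h6
  have h7 : (n : ℂ) = -aeval ρ q * (ρ ^ n - 1) := by linear_combination -h6
  have h8 : v (n : ℂ) ≤ v (ρ ^ n - 1) := by
    conv_lhs => rw [h7]
    exact v_mul_le v (by simpa using v_aeval v q h5) le_rfl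
  exact absurd h4 (not_lt.mpr h8)

lemma exists_prime_v {w : ℕ} (hw : 0 < w) (h : v (w : ℂ) < 1) :
    ∃ p ∈ w.primeFactors, v (p : ℂ) < 1 := by
  by_contra hc
  push Not at hc
  have : 1 ≤ v (w : ℂ) := by
    conv_rhs => rw [← Nat.prod_factorization_pow_eq_self hw.ne']
    rw [Finsupp.prod]
    push_cast
    rw [map_prod]
    exact one_le_prod' fun p hp => by rw [map_pow]; exact one_le_pow_of_one_le' (hc p hp) _
  exact absurd h (not_lt.mpr this)

end

/-- half of the character value -/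
noncomputable def Y {L : Type} [Field L] (c : ℕ → ℤ) (n : ℕ) (x : L) : L := ev c n x / 2

/-- the evaluation point -/
noncomputable def pt {L : Type} [Field L] (w : ℕ) (ω : L) (k : ℕ) (S : Finset ℕ) : L :=
  (ω ^ w) ^ k * ∏ p ∈ S, ω ^ (4 * w / p)

/-- the alternating product -/
noncomputable def Zf {L : Type} [Field L] (c : ℕ → ℤ) (w : ℕ) (ω : L) (k : ℕ) : L :=
  ∏ S ∈ w.primeFactors.powerset, Y c (4 * w) (pt w ω k S) ^ ((-1 : ℤ) ^ S.card)

lemma map_Zf {L : Type} [Field L] [CharZero L] (φ : L →+* ℂ) (c : ℕ → ℤ) (w : ℕ) (ω : L) (k : ℕ) :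
    φ (Zf c w ω k) = Zf c w (φ ω) k := by
  simp [Zf, Y, pt, ev, map_sum, map_ofNat]

lemma pt_pow {w : ℕ} {ω : ℂ} (hω : ω ^ (4 * w) = 1) (k : ℕ) (S : Finset ℕ) :
    pt w ω k S ^ (4 * w) = 1 := by
  have : ∀ a, (ω ^ a) ^ (4 * w) = 1 := fun a => by rw [← pow_mul, mul_comm a, pow_mul, hω, one_pow]
  simp only [pt, mul_pow, ← prod_pow, ← pow_mul ω w k, this, prod_const_one, mul_one]

lemma Y_mul {w : ℕ} {c : ℕ → ℤ} (h : Had (4 * w) c) (hw : 0 < w) {x : ℂ} (hx : x ^ (4 * w) = 1) :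
    Y c (4 * w) x * Y c (4 * w) x⁻¹ = w := by
  have := h.inv (by omega) hx
  unfold Y
  push_cast at this
  linear_combination this / 4

lemma norm_Y {w : ℕ} {c : ℕ → ℤ} (h : Had (4 * w) c) (hw : 0 < w) {x : ℂ} (hx : x ^ (4 * w) = 1) :
    ‖Y c (4 * w) x‖ = √w := by
  have h1 := Y_mul h hw hx
  have h2 : ‖x‖ = 1 := Complex.norm_eq_one_of_pow_eq_one hx (by omega)
  have h3 : Y c (4 * w) x⁻¹ = (starRingEnd ℂ) (Y c (4 * w) x) := by
    rw [Complex.inv_eq_conj h2]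
    simp [Y, ev, map_sum, map_ofNat]
  rw [h3, Complex.mul_conj'] at h1
  have h4 : ‖Y c (4 * w) x‖ ^ 2 = w := by exact_mod_cast h1
  rw [← h4, Real.sqrt_sq (norm_nonneg _)]

lemma norm_Zf {w : ℕ} {c : ℕ → ℤ} (h : Had (4 * w) c) (hw : 0 < w) {ω : ℂ}
    (hω : ω ^ (4 * w) = 1) (k : ℕ) : ‖Zf c w ω k / Zf c w ω 0‖ = 1 := by
  simp only [Zf, norm_div, norm_prod, norm_zpow, norm_Y h hw (pt_pow hω _ _)]
  refine div_self (prod_ne_zero_iff.mpr fun S _ => zpow_ne_zero _ ?_)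
  have : (0 : ℝ) < w := by exact_mod_cast hw
  positivity

lemma Y_eq {w : ℕ} {c : ℕ → ℤ} (hodd : ∀ k < 4 * w, Odd (c k)) {x : ℂ} (hx : x ^ (4 * w) = 1) :
    Y c (4 * w) x = (if x = 1 then 2 * (w : ℂ) else 0) - ev (fun k => (1 - c k) / 2) (4 * w) x := by
  have h1 : ∀ k < 4 * w, 1 - c k = 2 * ((1 - c k) / 2) := fun k hk => by
    obtain ⟨t, ht⟩ := hodd k hk
    omega
  have h2 := ev_two h1 x
  rw [ev_sub] at h2
  have h3 : ev (fun _ => 1) (4 * w) x = 2 * if x = 1 then 2 * (w : ℂ) else 0 := by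
    unfold ev
    split_ifs with h
    · simp [h]; ring
    · simp [geom_sum_eq h, hx]
  unfold Y
  linear_combination (h3 - h2) / 2

section
variable {Γ : Type} [LinearOrderedCommGroupWithZero Γ] (v : Valuation ℂ Γ)

lemma v_Y {w : ℕ} {c : ℕ → ℤ} (hodd : ∀ k < 4 * w, Odd (c k)) (hw : 0 < w) {x : ℂ}
    (hx : x ^ (4 * w) = 1) : v (Y c (4 * w) x) ≤ 1 := by
  rw [Y_eq hodd hx]
  refine v.map_sub_le ?_ (v_ev v _ _ (v_root v (by omega) hx).le)
  split_ifs
  · exact v_mul_le v (by simpa using v_nat v 2) (v_nat v w)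
  · simp

lemma v_Y_eq {w : ℕ} {c : ℕ → ℤ} (h : Had (4 * w) c) (hodd : ∀ k < 4 * w, Odd (c k)) (hw : 0 < w)
    (hv : v (w : ℂ) = 1) {x : ℂ} (hx : x ^ (4 * w) = 1) : v (Y c (4 * w) x) = 1 := by
  refine le_antisymm (v_Y v hodd hw hx) ?_
  rw [← hv, ← Y_mul h hw hx, mul_comm]
  exact v_mul_le v (v_Y v hodd hw (by rw [inv_pow, hx, inv_one])) le_rfl

lemma one_Zf {w : ℕ} {c : ℕ → ℤ} (h : Had (4 * w) c) (hw : 0 < w) {ω : ℂ}
    (hω : IsPrimitiveRoot ω (4 * w)) {p : ℕ} (hp : p ∈ w.primeFactors) (hv : v (p : ℂ) < 1)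
    (k : ℕ) : One v (Zf c w ω k) := by
  have hpp := Nat.prime_of_mem_primeFactors hp
  have hd : p ∣ 4 * w := (Nat.dvd_of_mem_primeFactors hp).mul_left 4
  have hζ : IsPrimitiveRoot (ω ^ (4 * w / p)) p :=
    hω.pow (by omega) (Nat.div_mul_cancel hd).symm
  unfold Zf
  rw [← insert_erase hp, prod_powerset_insert (notMem_erase _ _), ← prod_mul_distrib]
  refine One.prod fun S hS => ?_
  have hpS : p ∉ S := fun h' => notMem_erase _ _ (mem_powerset.mp hS h')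
  have e : pt w ω k (insert p S) = pt w ω k S * ω ^ (4 * w / p) := by
    unfold pt; rw [prod_insert hpS]; ring
  have h1 := (h.link v (by omega) hpp hv hζ.pow_eq_one (hζ.ne_one hpp.one_lt)
    (pt_pow hω.pow_eq_one k S)).zpow ((-1) ^ (S.card + 1))
  rw [card_insert_of_notMem hpS, e]
  convert h1 using 1
  unfold Y
  rw [pow_succ, mul_neg_one, zpow_neg, zpow_neg, ← div_eq_mul_inv, ← div_zpow, ← inv_zpow,
    inv_div, div_div_div_cancel_right₀ two_ne_zero]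

lemma v_Zf {w : ℕ} {c : ℕ → ℤ} (h : Had (4 * w) c) (hodd : ∀ k < 4 * w, Odd (c k)) (hw : 0 < w)
    {ω : ℂ} (hω : IsPrimitiveRoot ω (4 * w)) (k : ℕ) : v (Zf c w ω k) = 1 := by
  rcases (v_nat v w).lt_or_eq with h1 | h1
  · obtain ⟨p, hp, hv⟩ := exists_prime_v v hw h1
    exact (one_Zf v h hw hω hp hv k).eq
  · simp [Zf, v_Y_eq v h hodd hw h1 (pt_pow hω.pow_eq_one _ _)]

lemma v_four (h2 : v 2 < 1) {x : ℂ} (hx : x ^ 4 = 1) : v (x - 1) < 1 := by
  have h1 : v (x ^ 2 - 1) < 1 :=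
    v_zeta_lt v Nat.prime_two (by simpa using h2) (by rw [← pow_mul, hx])
  by_contra h
  have h3 := not_lt.mp h
  have h5 : v (x ^ 2 - 1) = v (x - 1) * v (x - 1 + 2) := by
    rw [← map_mul]; congr 1; ring
  rw [v.map_add_eq_of_lt_left (h2.trans_le h3)] at h5
  exact absurd h1 (not_lt.mpr (h5 ▸ one_le_mul h3 h3))

lemma one_Zf_two {w : ℕ} {c : ℕ → ℤ} (h : Had (4 * w) c) (hodd : ∀ k < 4 * w, Odd (c k))
    (hw : 0 < w) (h2 : v 2 < 1) (hv : v (w : ℂ) = 1) {ω : ℂ} (hω : ω ^ (4 * w) = 1) (k : ℕ) :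
    One v (Zf c w ω k / Zf c w ω 0) := by
  unfold Zf
  rw [← prod_div_distrib]
  refine One.prod fun S _ => ?_
  rw [← div_zpow]
  refine One.zpow (One.div_of ?_) _
  rw [v_Y_eq v h hodd hw hv (pt_pow hω _ _), Y_eq hodd (pt_pow hω _ _), Y_eq hodd (pt_pow hω _ _),
    sub_sub_sub_comm]
  have h3 : ∀ x : ℂ, v (if x = 1 then 2 * (w : ℂ) else 0) < 1 := by
    intro x
    split_ifs
    · simpa [hv] using h2
    · simp
  refine v.map_sub_lt (v.map_sub_lt (h3 _) (h3 _)) ((v_ev_sub v _ _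
    (v_root v (by omega) (pt_pow hω _ _)).le (v_root v (by omega) (pt_pow hω _ _)).le).trans_lt ?_)
  have e : pt w ω k S - pt w ω 0 S = pt w ω 0 S * ((ω ^ w) ^ k - 1) := by unfold pt; ring
  rw [e, map_mul, v_root v (by omega) (pt_pow hω _ _), one_mul]
  refine v_four v h2 ?_
  rw [← pow_mul, mul_comm k, pow_mul, ← pow_mul ω, mul_comm w, hω, one_pow]

/-- functions on the fourth roots of unity given by integral polynomials -/
noncomputable def Lam (ι : ℂ) : Subalgebra v.integer (ℕ → ℂ) :=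
  Algebra.adjoin v.integer {fun k => ι ^ k}

lemma Lam.const (ι : ℂ) {a : ℂ} (ha : v a ≤ 1) : (fun _ => a) ∈ Lam v ι :=
  (Lam v ι).algebraMap_mem ⟨a, ha⟩

lemma Lam.ev {ι : ℂ} {f : ℕ → ℂ} (hf : f ∈ Lam v ι) (d : ℕ → ℤ) (n : ℕ) :
    (fun k => ev d n (f k)) ∈ Lam v ι := by
  have : (fun k => Vale.Agent.P033.ev d n (f k)) = ∑ j ∈ range n, (d j : ℕ → ℂ) * f ^ j := by
    ext k; simp [Vale.Agent.P033.ev]
  rw [this]
  exact sum_mem fun j _ => mul_mem (intCast_mem _ _) (pow_mem hf _)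

lemma Lam.sum {ι : ℂ} (hι : ι ^ 4 = 1) {f : ℕ → ℂ} (hf : f ∈ Lam v ι) :
    v (∑ k ∈ range 4, f k) ≤ v 4 := by
  have h1 : f ∈ Subalgebra.toSubmodule (Lam v ι) := hf
  rw [Lam, Algebra.adjoin_eq_span] at h1
  clear hf
  induction h1 using Submodule.span_induction with
  | mem g hg =>
    obtain ⟨j, rfl⟩ := Submonoid.mem_closure_singleton.mp hg
    simp only [Pi.pow_apply, ← pow_mul, mul_comm _ j]
    simp only [pow_mul]
    by_cases h : ι ^ j = 1
    · simp [h]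
    · rw [geom_sum_eq h, ← pow_mul, mul_comm, pow_mul, hι]; simp
  | zero => simp
  | add f g _ _ h1 h2 =>
    simp only [Pi.add_apply, sum_add_distrib]
    exact v.map_add_le h1 h2
  | smul a f _ h1 =>
    have : ∑ k ∈ range 4, (a • f) k = (a : ℂ) * ∑ k ∈ range 4, f k := by
      rw [mul_sum]; rfl
    rw [this]
    exact v_mul_le v a.2 h1

end

lemma pt_ne_one {w : ℕ} (hw : Odd w) {ω : ℂ} (hω : IsPrimitiveRoot ω (4 * w)) (k : ℕ)
    {S : Finset ℕ} (hS : S ⊆ w.primeFactors) (hne : S.Nonempty) : pt w ω k S ≠ 1 := by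
  obtain ⟨p, hp⟩ := hne
  have hw0 := hw.pos
  have hζ : ∀ q ∈ S, IsPrimitiveRoot (ω ^ (4 * w / q)) q := fun q hq =>
    hω.pow (by omega) (Nat.div_mul_cancel ((Nat.dvd_of_mem_primeFactors (hS hq)).mul_left 4)).symm
  have hpp := Nat.prime_of_mem_primeFactors (hS hp)
  intro h
  have h1 := congrArg (· ^ (4 * ∏ q ∈ S.erase p, q)) h
  simp only [pt, one_pow, mul_pow] at h1
  rw [← mul_prod_erase S _ hp, mul_pow, ← prod_pow, prod_eq_one fun q hq =>
    ((hζ q (mem_of_mem_erase hq)).pow_eq_one_iff_dvd _).mpr ((dvd_prod_of_mem _ hq).mul_left 4),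
    ← pow_mul (ω ^ w), ← pow_mul ω w, (hω.pow_eq_one_iff_dvd _).mpr ⟨k * ∏ q ∈ S.erase p, q, by ring⟩,
    one_mul, mul_one, (hζ p hp).pow_eq_one_iff_dvd, hpp.dvd_mul] at h1
  rcases h1 with h1 | h1
  · have h2 : p ∣ 2 := hpp.dvd_of_dvd_pow (show p ∣ 2 ^ 2 from h1)
    have h3 : p = 2 := (Nat.prime_dvd_prime_iff_eq hpp Nat.prime_two).mp h2
    have := Nat.dvd_of_mem_primeFactors (hS hp)
    rw [h3] at this
    exact (Nat.not_even_iff_odd.mpr hw) (even_iff_two_dvd.mpr this)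
  · obtain ⟨q, hq, h2⟩ := (Prime.dvd_finsetProd_iff hpp.prime _).mp h1
    exact ne_of_mem_erase hq ((Nat.prime_dvd_prime_iff_eq hpp
      (Nat.prime_of_mem_primeFactors (hS (mem_of_mem_erase hq)))).mp h2).symm

lemma exists_field {n : ℕ} (hn : 0 < n) :
    ∃ (K : Type) (_ : Field K) (_ : NumberField K) (ζ : K), IsPrimitiveRoot ζ n := by
  have : NeZero n := ⟨hn.ne'⟩
  have : NeZero (n : ℚ) := ⟨by exact_mod_cast hn.ne'⟩
  exact ⟨CyclotomicField n ℚ, inferInstance, inferInstance, _,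
    @IsCyclotomicExtension.zeta_spec n _ ℚ (CyclotomicField n ℚ) _ _ _
      (CyclotomicField.isCyclotomicExtension n ℚ)⟩

theorem not_four_mul {w : ℕ} (hw : Odd w) (hw1 : w ≠ 1) {c : ℕ → ℤ} (h : Had (4 * w) c)
    (hodd : ∀ k < 4 * w, Odd (c k)) : False := by
  have hw0 := hw.pos
  obtain ⟨K, _, _, ζ, hK⟩ := exists_field (n := 4 * w) (by omega)
  let j : K →+* ℂ := (IsAlgClosed.lift (R := ℚ) : K →ₐ[ℚ] ℂ).toRingHom
  have hω : IsPrimitiveRoot (j ζ) (4 * w) := hK.map_of_injective j.injective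
  obtain ⟨p, hpp, hpw⟩ := Nat.exists_prime_and_dvd hw1
  have hp : p ∈ w.primeFactors := Nat.mem_primeFactors.mpr ⟨hpp, hpw, by omega⟩
  have hp2 : p ≠ 2 := by
    rintro rfl
    exact (Nat.not_even_iff_odd.mpr hw) (even_iff_two_dvd.mpr hpw)
  obtain ⟨V, hV⟩ := exists_val Nat.prime_two
  obtain ⟨V', hV'⟩ := exists_val hpp
  have h2 : V.valuation 2 < 1 := by simpa using hV
  have hv : V.valuation (w : ℂ) = 1 := by
    have := v_coprime _ hV (m := w) (Nat.isCoprime_iff_coprime.mpr (Nat.coprime_two_left.mpr hw))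
    simpa using this
  have hZ : ∀ k, Zf c w (j ζ) k / Zf c w (j ζ) 0 = 1 := by
    intro k
    have hint : IsIntegral ℤ (Zf c w ζ k / Zf c w ζ 0) := by
      rw [← isIntegral_algHom_iff j.toIntAlgHom j.injective]
      refine isIntegral_of_val fun W => ?_
      simp [map_Zf, v_Zf _ h hodd hw0 hω]
    obtain ⟨m, hm, hpow⟩ := NumberField.Embeddings.pow_eq_one_of_norm_eq_one K ℂ hint fun φ => by
      rw [map_div₀, map_Zf, map_Zf]
      exact norm_Zf h hw0 (by rw [← map_pow, hK.pow_eq_one, map_one]) k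
    refine eq_one_of_two hpp Nat.prime_two hp2 hV' hV hm ?_ ?_
      (one_Zf_two _ h hodd hw0 h2 hv hω.pow_eq_one k)
    · rw [← map_Zf, ← map_Zf, ← map_div₀, ← map_pow, hpow, map_one]
    · rw [div_eq_mul_inv]
      exact (one_Zf _ h hw0 hω hp hV' k).mul (one_Zf _ h hw0 hω hp hV' 0).inv
  generalize j ζ = ω at *
  have hZ1 := v_Zf V.valuation h hodd hw0 hω 0
  have hι : (ω ^ w) ^ 4 = 1 := by rw [← pow_mul, mul_comm, hω.pow_eq_one]
  have hgen : (fun k => (ω ^ w) ^ k) ∈ Lam V.valuation (ω ^ w) := Algebra.self_mem_adjoin_singleton _ _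
  have hpt : ∀ S, (fun k => pt w ω k S) ∈ Lam V.valuation (ω ^ w) := by
    intro S
    have h1 := (v_root V.valuation (by omega) (pt_pow hω.pow_eq_one 0 S)).le
    have := mul_mem hgen (Lam.const _ (ω ^ w) h1)
    convert this using 1
    ext k; simp [pt]
  have hY : ∀ S ∈ w.primeFactors.powerset.erase ∅,
      (fun k => (Y c (4 * w) (pt w ω k S) ^ ((-1 : ℤ) ^ S.card))⁻¹) ∈ Lam V.valuation (ω ^ w) := by
    intro S hS
    have hne := fun k => pt_ne_one hw hω k (mem_powerset.mp (mem_of_mem_erase hS))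
      (nonempty_iff_ne_empty.mpr (ne_of_mem_erase hS))
    rcases neg_one_pow_eq_or ℤ S.card with e | e <;> rw [e]
    · have h1 := mul_mem (neg_mem (Lam.ev _ (pow_mem (hpt S) (4 * w - 1)) (fun k => (1 - c k) / 2)
        (4 * w))) (Lam.const V.valuation (ω ^ w) (a := (w : ℂ)⁻¹) (by simp [hv]))
      convert h1 using 1
      ext k
      have h3 := Y_mul h hw0 (pt_pow hω.pow_eq_one k S)
      have h4 := Y_eq hodd (x := (pt w ω k S)⁻¹) (by rw [inv_pow, pt_pow hω.pow_eq_one, inv_one])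
      rw [if_neg (by simpa using hne k), zero_sub] at h4
      have h5 : (w : ℂ) ≠ 0 := by exact_mod_cast hw0.ne'
      simp only [zpow_one, Pi.mul_apply, Pi.neg_apply, Pi.pow_apply,
        pow_pred_eq_inv (by omega) (pt_pow hω.pow_eq_one k S), ← h4]
      exact inv_eq_of_mul_eq_one_right (by rw [← mul_assoc, h3, mul_inv_cancel₀ h5])
    · have h1 := neg_mem (Lam.ev _ (hpt S) (fun k => (1 - c k) / 2) (4 * w))
      convert h1 using 1
      ext k
      simp [Y_eq hodd (pt_pow hω.pow_eq_one k S), hne k]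
  have hY0 : (fun k => Y c (4 * w) (pt w ω k ∅)) ∈ Lam V.valuation (ω ^ w) := by
    have h1 := mul_mem (Lam.const _ (ω ^ w) hZ1.le) (prod_mem hY)
    convert h1 using 1
    ext k
    have h3 : Zf c w ω 0 ≠ 0 := by
      intro h0; simp [h0] at hZ1
    have h4 : Zf c w ω k ≠ 0 := by
      intro h0; simpa [h0] using hZ k
    simp only [Pi.mul_apply, prod_apply, prod_inv_distrib]
    rw [← (div_eq_one_iff_eq h3).mp (hZ k)]
    unfold Zf at h4 ⊢
    rw [← mul_prod_erase _ _ (empty_mem_powerset _)] at h4 ⊢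
    rw [mul_inv_cancel_right₀ (right_ne_zero_of_mul h4)]
    simp
  have h3 := Lam.sum _ hι (add_mem hY0 (Lam.ev _ (hpt ∅) (fun k => (1 - c k) / 2) (4 * w)))
  have h4 : IsPrimitiveRoot (ω ^ w) 4 := hω.pow (by omega) (mul_comm _ _)
  have h5 : ∀ k, pt w ω k ∅ = 1 ↔ 4 ∣ k := fun k => by simp [pt, h4.pow_eq_one_iff_dvd]
  simp only [Pi.add_apply, Y_eq hodd (pt_pow hω.pow_eq_one _ _), sub_add_cancel, h5] at h3
  simp only [sum_range_succ, range_zero, sum_empty] at h3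
  norm_num at h3
  rw [hv, mul_one, show (4 : ℂ) = 2 * 2 by norm_num, map_mul] at h3
  have h0 : 0 < V.valuation 2 := zero_lt_iff.mpr (by simp)
  have h9 : V.valuation 2 * V.valuation 2 < V.valuation 2 := by
    simpa using mul_lt_mul_of_pos_left h2 h0
  exact absurd h3 (not_le.mpr h9)

end Vale.Agent.P033
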