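import Vale.Agent.P033.Val

/-! The order of a circulant Hadamard matrix is not divisible by sixteen. -/

namespace Vale.Agent.P033

open Finset Polynomial

variable {Γ : Type} [LinearOrderedCommGroupWithZero Γ] (v : Valuation ℂ Γ)

lemma v_pi (h2 : v 2 < 1) (i : ℕ) {x : ℂ} (hx : x ^ 2 ^ i = -1) : v (x - 1) ^ 2 ^ i = v 2 := by
  induction i generalizing x with
  | zero =>
    obtain rfl : x = -1 := by simpa using hx
    rw [show (-1 - 1 : ℂ) = -2 by norm_num]
    simp
  | succ i ih =>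
    have h1 := ih (x := x ^ 2) (by rw [← pow_mul, ← pow_succ', hx])
    have h0 : 0 < v 2 := zero_lt_iff.mpr (by simp)
    have hx1 : v (x ^ 2) = 1 := v_root v (m := 2 ^ (i + 1)) (by positivity)
      (by rw [← pow_mul, mul_comm, pow_mul, hx]; norm_num)
    have h3 : v (x ^ 2 - 1) ≤ 1 := v.map_sub_le hx1.le (by simp)
    have h4 : v 2 ≤ v (x ^ 2 - 1) := by
      rw [← h1]; exact pow_le_of_le_one zero_le h3 (by positivity)
    have h5 : v (x ^ 2 - 1) = v (x - 1) * v (x - 1 + 2) := by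
      rw [← map_mul]; congr 1; ring
    have h6 : v 2 < v (x - 1) := by
      by_contra h
      have h7 := not_lt.mp h
      have h8 : v (x ^ 2 - 1) ≤ v 2 * v 2 := by
        rw [h5]; exact mul_le_mul' h7 (v.map_add_le h7 le_rfl)
      have h9 : v 2 * v 2 < v 2 := by simpa using mul_lt_mul_of_pos_left h2 h0
      exact absurd (h4.trans h8) (not_le.mpr h9)
    rw [v.map_add_eq_of_lt_left h6] at h5
    rw [← h1, h5, ← sq, ← pow_mul, ← pow_succ']

lemma even_of_v (h2 : v 2 < 1) {a : ℤ} (ha : v (a : ℂ) < 1) : (2 : ℤ) ∣ a := by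
  by_contra h
  have := v_coprime v (p := 2) (by simpa using h2) (m := a)
    ((Int.prime_two.irreducible.coprime_iff_not_dvd).mpr h)
  exact absurd this ha.ne

lemma two_dvd (h2 : v 2 < 1) {M : ℕ} (hM : 0 < M) {x : ℂ} (hx : v (x - 1) ^ M = v 2) (k : ℕ)
    (hk : k ≤ M) (f : ℤ[X]) (hf : f.degree < k) (h : v (aeval x f) ≤ v (x - 1) ^ k) :
    C (2 : ℤ) ∣ f := by
  have hπ : v (x - 1) < 1 := by
    by_contra h'
    exact absurd (hx ▸ one_le_pow_of_one_le' (not_lt.mp h') M) (not_le.mpr h2)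
  have hπ0 : 0 < v (x - 1) := by
    rw [zero_lt_iff]
    intro h'
    rw [h', zero_pow hM.ne'] at hx
    simpa using hx.symm
  have hx1 : v x ≤ 1 := (One.eq hπ).le
  induction k generalizing f with
  | zero =>
    have : f = 0 := by simpa using hf
    simp [this]
  | succ k ih =>
    have hm : (X - C (1 : ℤ)).Monic := monic_X_sub_C 1
    have e := modByMonic_add_div f (X - C 1)
    rw [modByMonic_X_sub_C_eq_C_eval] at e
    have hg : (f /ₘ (X - C 1)).degree < k := by
      by_cases hf0 : f /ₘ (X - C 1) = 0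
      · rw [hf0]; exact WithBot.bot_lt_coe _
      have hf1 : f ≠ 0 := by rintro rfl; simp at hf0
      rw [← natDegree_lt_iff_degree_lt hf0, natDegree_divByMonic f hm, natDegree_X_sub_C]
      have h1 := (natDegree_lt_iff_degree_lt hf1).mpr hf
      have h3 : 1 ≤ f.natDegree := by
        by_contra h4
        apply hf0
        rw [divByMonic_eq_zero_iff hm, degree_X_sub_C, degree_eq_natDegree hf1]
        exact_mod_cast not_le.mp h4
      omega
    generalize f /ₘ (X - C 1) = g at *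
    generalize f.eval 1 = a at *
    subst e
    have e2 : aeval x (C a + (X - C 1) * g) = (a : ℂ) + (x - 1) * aeval x g := by simp
    rw [e2] at h
    have h3 : v (x - 1) ^ (k + 1) < 1 := pow_lt_one' hπ (by omega)
    have h4 : v ((x - 1) * aeval x g) < 1 := by
      rw [mul_comm]; exact (v_mul_le v (v_aeval v g hx1) le_rfl).trans_lt hπ
    have h5 : v (a : ℂ) < 1 := by
      have := v.map_sub_lt (h.trans_lt h3) h4
      simpa using this
    obtain ⟨b, rfl⟩ := even_of_v v h2 h5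
    have h6 : v ((2 * b : ℤ) : ℂ) ≤ v (x - 1) ^ (k + 1) := by
      push_cast
      rw [mul_comm]
      exact v_mul_le v (v_int v b) (hx ▸ pow_le_pow_right_of_le_one' hπ.le hk)
    have h7 := v.map_sub_le h h6
    rw [add_sub_cancel_left, map_mul, pow_succ'] at h7
    exact dvd_add (map_dvd C (dvd_mul_right 2 b))
      (Dvd.dvd.mul_left (ih (by omega) g hg (le_of_mul_le_mul_of_pos_left h7 hπ0)) _)

lemma aeval_ev {A : Type} [CommRing A] (c : ℕ → ℤ) (m : ℕ) (g : ℤ[X]) (x : A) :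
    aeval x (ev c m g) = ev c m (aeval x g) := by
  simp [ev, map_sum]

lemma coeff_ev (c : ℕ → ℤ) (m j : ℕ) :
    (ev c m (X : ℤ[X])).coeff j = if j < m then c j else 0 := by
  simp only [ev, finsetSum_coeff, ← C_eq_intCast, coeff_C_mul, coeff_X_pow]
  simp

lemma two_dvd_ev (h2 : v 2 < 1) {M : ℕ} (hM : 0 < M) {x : ℂ} (hx : v (x - 1) ^ M = v 2)
    (c : ℕ → ℤ) (h : v (ev c M x) ≤ v 2) : ∀ j < M, 2 ∣ c j := by
  intro j hj
  have := two_dvd v h2 hM hx M le_rfl (ev c M X)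
    ((degree_lt_iff_coeff_zero _ _).mpr fun m hm => by
      rw [coeff_ev, if_neg (by omega)]) (by rwa [aeval_ev, aeval_X, hx])
  have := (C_dvd_iff_dvd_coeff _ _).mp this j
  rwa [coeff_ev, if_pos hj] at this

lemma ev_two {L : Type} [CommRing L] {c c' : ℕ → ℤ} {m : ℕ} (h : ∀ j < m, c j = 2 * c' j) (x : L) :
    ev c m x = 2 * ev c' m x := by
  unfold ev
  rw [mul_sum]
  refine sum_congr rfl fun j hj => ?_
  rw [h j (mem_range.mp hj)]; push_cast; ring

lemma four_dvd_ev (h2 : v 2 < 1) {M : ℕ} (hM : 0 < M) {x : ℂ} (hx : v (x - 1) ^ M = v 2)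
    (c : ℕ → ℤ) (h : v (ev c M x) ≤ v 2 * v 2) : ∀ j < M, 4 ∣ c j := by
  have h0 : 0 < v 2 := zero_lt_iff.mpr (by simp)
  have h1 := two_dvd_ev v h2 hM hx c (h.trans (by simpa using mul_le_mul' h2.le (le_refl (v 2))))
  have h3 : ∀ j < M, c j = 2 * (c j / 2) := fun j hj => by have := h1 j hj; omega
  rw [ev_two h3, map_mul] at h
  have h4 := two_dvd_ev v h2 hM hx _ (le_of_mul_le_mul_of_pos_left h h0)
  intro j hj
  have := h1 j hj
  have := h4 j hj
  omega

lemma ev_add_range {L : Type} [CommRing L] (c : ℕ → ℤ) (a b : ℕ) (x : L) :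
    ev c (a + b) x = ev c a x + x ^ a * ev (fun k => c (a + k)) b x := by
  unfold ev
  rw [sum_range_add, mul_sum]
  congr 1
  exact sum_congr rfl fun k _ => by ring

lemma ev_add {L : Type} [CommRing L] (c c' : ℕ → ℤ) (m : ℕ) (x : L) :
    ev (fun k => c k + c' k) m x = ev c m x + ev c' m x := by
  simp [ev, add_mul, sum_add_distrib]

lemma ev_sub {L : Type} [CommRing L] (c c' : ℕ → ℤ) (m : ℕ) (x : L) :
    ev (fun k => c k - c' k) m x = ev c m x - ev c' m x := by
  simp [ev, sub_mul, sum_sub_distrib]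

lemma parseval (c : ℕ → ℤ) {m : ℕ} {ω : ℂ} (hω : IsPrimitiveRoot ω m) :
    ∑ j ∈ range m, ev c m (ω ^ j) * ev c m (ω ^ j)⁻¹ = m * ∑ k ∈ range m, (c k : ℂ) ^ 2 := by
  simp only [ev, sum_mul_sum]
  rw [sum_comm, mul_sum]
  refine sum_congr rfl fun k hk => ?_
  rw [sum_comm]
  have hω0 : ω ≠ 0 := hω.ne_zero (by have := mem_range.mp hk; omega)
  have : ∀ l ∈ range m, ∑ j ∈ range m, (c k : ℂ) * (ω ^ j) ^ k * ((c l : ℂ) * (ω ^ j)⁻¹ ^ l) =
      if l = k then m * (c k : ℂ) ^ 2 else 0 := by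
    intro l hl
    have e : ∀ j, (c k : ℂ) * (ω ^ j) ^ k * ((c l : ℂ) * (ω ^ j)⁻¹ ^ l) =
        (c k * c l) * (ω ^ k / ω ^ l) ^ j := by
      intro j
      rw [div_pow, inv_pow, ← pow_mul, ← pow_mul, ← pow_mul, ← pow_mul, mul_comm j, mul_comm j]
      ring
    simp only [e, ← mul_sum]
    split_ifs with h
    · subst h
      rw [div_self (pow_ne_zero _ hω0)]; simp; ring
    · have h1 : ω ^ k / ω ^ l ≠ 1 := by
        intro h1
        rw [div_eq_one_iff_eq (pow_ne_zero _ hω0)] at h1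
        exact h (hω.pow_inj (mem_range.mp hk) (mem_range.mp hl) h1).symm
      rw [geom_sum_eq h1, div_pow, ← pow_mul, ← pow_mul, mul_comm k, mul_comm l, pow_mul, pow_mul,
        hω.pow_eq_one]
      simp
  rw [sum_congr rfl this]
  simp [mem_range.mp hk]

lemma descent {w : ℤ} (hw : Odd w) (e j : ℕ) (hj : e + 3 ≤ j) (c : ℕ → ℤ)
    (hodd : ∀ k < 2 ^ j, Odd (c k))
    (h : ∀ x : ℂ, x ^ 2 ^ j = 1 → ev c (2 ^ j) x * ev c (2 ^ j) x⁻¹ = 4 ^ (e + 1) * w) : False := by
  induction e generalizing j c with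
  | zero =>
    obtain ⟨ω, hω⟩ : ∃ ω : ℂ, IsPrimitiveRoot ω (2 ^ j) :=
      ⟨_, Complex.isPrimitiveRoot_exp (2 ^ j) (by positivity)⟩
    have h1 := parseval c hω
    rw [sum_congr rfl fun i _ => h _ (by
      rw [← pow_mul, mul_comm i, pow_mul, hω.pow_eq_one, one_pow])] at h1
    simp only [sum_const, card_range, nsmul_eq_mul] at h1
    have h2 := mul_left_cancel₀ (by simp) h1
    have h3 : 4 * w = ∑ k ∈ range (2 ^ j), c k ^ 2 := by exact_mod_cast h2
    have h4 : (8 : ℤ) ∣ ∑ k ∈ range (2 ^ j), (c k ^ 2 - 1) :=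
      dvd_sum fun k hk => by
        have := Int.eight_dvd_sq_sub_one_of_odd (hodd k (mem_range.mp hk))
        exact this
    rw [sum_sub_distrib, ← h3] at h4
    obtain ⟨i, rfl⟩ : ∃ i, j = i + 3 := ⟨j - 3, by omega⟩
    simp only [sum_const, card_range, nsmul_eq_mul, pow_add] at h4
    obtain ⟨t, rfl⟩ := hw
    push_cast at h4
    omega
  | succ e ih =>
    obtain ⟨i, rfl⟩ : ∃ i, j = i + 1 := ⟨j - 1, by omega⟩
    obtain ⟨V, hV⟩ := exists_val Nat.prime_two
    have h2 : V.valuation 2 < 1 := by simpa using hV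
    have hM : 0 < 2 ^ i := by positivity
    rw [pow_succ, mul_two] at h hodd
    have h4 : ∀ k < 2 ^ i, 4 ∣ c k - c (2 ^ i + k) := by
      obtain ⟨x, hx⟩ := IsAlgClosed.exists_pow_nat_eq (-1 : ℂ) hM
      have hx' : x⁻¹ ^ 2 ^ i = -1 := by rw [inv_pow, hx]; norm_num
      have h5 := h x (by rw [pow_add, hx]; norm_num)
      rw [ev_add_range, ev_add_range, hx, hx', neg_one_mul, neg_one_mul, ← sub_eq_add_neg,
        ← sub_eq_add_neg, ← ev_sub, ← ev_sub] at h5
      by_contra hcon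
      have a1 := mt (four_dvd_ev V.valuation h2 hM (v_pi _ h2 i hx) _) hcon
      have a2 := mt (four_dvd_ev V.valuation h2 hM (v_pi _ h2 i hx') _) hcon
      have a3 := mul_lt_mul'' (not_le.mp a1) (not_le.mp a2) zero_le zero_le
      rw [← map_mul V.valuation (ev _ _ _), h5] at a3
      refine absurd a3 (not_lt.mpr ?_)
      rw [show (4 : ℂ) ^ (e + 1 + 1) * w = ((4 ^ e * w : ℤ) : ℂ) * ((2 * 2) * (2 * 2)) by
        push_cast; ring]
      exact v_mul_le _ (v_int _ _) (by simp only [map_mul, le_refl])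
    refine ih i (by omega) (fun k => (c k + c (2 ^ i + k)) / 2) (fun k hk => ?_) fun x hx => ?_
    · have := h4 k hk
      obtain ⟨t, ht⟩ := hodd k (by omega)
      rw [Int.odd_iff]
      omega
    · have hx' : x⁻¹ ^ 2 ^ i = 1 := by rw [inv_pow, hx, inv_one]
      have h5 := h x (by rw [pow_add, hx, one_mul])
      have h6 : ∀ k < 2 ^ i, c k + c (2 ^ i + k) = 2 * ((c k + c (2 ^ i + k)) / 2) := by
        intro k hk
        have := h4 k hk
        omega
      rw [ev_add_range, ev_add_range, hx, hx', one_mul, one_mul, ← ev_add, ← ev_add,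
        ev_two h6, ev_two h6] at h5
      linear_combination h5 / 4

lemma ev_fold (c : ℕ → ℤ) (m w : ℕ) {x : ℂ} (hx : x ^ m = 1) :
    ev c (m * w) x = ev (fun k => ∑ t ∈ range w, c (m * t + k)) m x := by
  induction w with
  | zero => simp [ev]
  | succ w ih =>
    rw [Nat.mul_succ, ev_add_range, ih, pow_mul, hx, one_pow, one_mul, ← ev_add]
    simp only [sum_range_succ]

lemma odd_sum (f : ℕ → ℤ) (w : ℕ) (h : ∀ t < w, Odd (f t)) :
    (∑ t ∈ range w, f t) % 2 = w % 2 := by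
  induction w with
  | zero => simp
  | succ w ih =>
    rw [sum_range_succ]
    have := ih fun t ht => h t (by omega)
    have := Int.odd_iff.mp (h w (by omega))
    push_cast
    omega

/-- Turyn's two-adic restriction. -/
lemma not_sixteen {w b : ℕ} (hw : Odd w) (hb : 2 ≤ b) (c : ℕ → ℤ)
    (hodd : ∀ k < 4 ^ b * w, Odd (c k))
    (h : ∀ x : ℂ, x ^ (4 ^ b * w) = 1 →
      ev c (4 ^ b * w) x * ev c (4 ^ b * w) x⁻¹ = (4 ^ b * w : ℕ)) : False := by
  obtain ⟨e, rfl⟩ : ∃ e, b = e + 1 := ⟨b - 1, by omega⟩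
  have e4 : 4 ^ (e + 1) = 2 ^ (2 * (e + 1)) := by rw [pow_mul]; norm_num
  refine descent (w := w) (by exact_mod_cast hw) e (2 * (e + 1)) (by omega)
    (fun k => ∑ t ∈ range w, c (2 ^ (2 * (e + 1)) * t + k)) (fun k hk => ?_) fun x hx => ?_
  · rw [Int.odd_iff, odd_sum _ w fun t ht => hodd _ (by rw [e4]; nlinarith)]
    have := Nat.odd_iff.mp hw
    omega
  · have hx' : x⁻¹ ^ 2 ^ (2 * (e + 1)) = 1 := by rw [inv_pow, hx, inv_one]
    rw [← ev_fold c _ w hx, ← ev_fold c _ w hx', ← e4,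
      h x (by rw [e4, pow_mul, hx, one_pow])]
    push_cast
    rfl

end Vale.Agent.P033
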