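import Mathlib

/-! Valuation lemmas on the complex numbers. -/

namespace Vale.Agent.P033

open Finset

variable {Γ : Type} [LinearOrderedCommGroupWithZero Γ] (v : Valuation ℂ Γ)

lemma v_nat (m : ℕ) : v (m : ℂ) ≤ 1 := by
  induction m with
  | zero => simp
  | succ m ih => push_cast; exact v.map_add_le ih (by simp)

lemma v_int (m : ℤ) : v (m : ℂ) ≤ 1 := by
  obtain ⟨k, rfl | rfl⟩ := m.eq_nat_or_neg
  · simpa using v_nat v k
  · simpa using v_nat v k

lemma v_mul_le {x y : ℂ} {a : Γ} (hx : v x ≤ 1) (hy : v y ≤ a) : v (x * y) ≤ a := by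
  rw [map_mul]; simpa using mul_le_mul' hx hy

lemma v_pow_le {x : ℂ} (hx : v x ≤ 1) (k : ℕ) : v (x ^ k) ≤ 1 := by
  rw [map_pow]; exact pow_le_one' hx k

lemma v_root {x : ℂ} {m : ℕ} (hm : 0 < m) (hx : x ^ m = 1) : v x = 1 := by
  have : v x ^ m = 1 := by rw [← map_pow, hx, map_one]
  exact (pow_eq_one_iff_of_nonneg zero_le hm.ne').mp this

lemma v_coprime {p : ℕ} {m : ℤ} (hp : v (p : ℂ) < 1) (h : IsCoprime (p : ℤ) m) : v (m : ℂ) = 1 := by
  refine le_antisymm (v_int v m) (not_lt.mp fun hm => ?_)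
  obtain ⟨a, b, hab⟩ := h
  have h1 : ((a : ℂ) * p + b * m) = 1 := by exact_mod_cast hab
  have h2 : v ((a : ℂ) * p + b * m) < 1 :=
    v.map_add_lt ((v_mul_le v (v_int v a) le_rfl).trans_lt hp)
      ((v_mul_le v (v_int v b) le_rfl).trans_lt hm)
  rw [h1, map_one] at h2
  exact lt_irrefl _ h2

lemma v_pow_sub {x y : ℂ} (hx : v x ≤ 1) (hy : v y ≤ 1) (k : ℕ) :
    v (x ^ k - y ^ k) ≤ v (x - y) := by
  induction k with
  | zero => simp
  | succ k ih =>
    have : x ^ (k + 1) - y ^ (k + 1) = x * (x ^ k - y ^ k) + y ^ k * (x - y) := by ring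
    rw [this]
    exact v.map_add_le (v_mul_le v hx ih) (v_mul_le v (v_pow_le v hy k) le_rfl)

/-- evaluation of a coefficient sequence -/
noncomputable def ev {L : Type} [CommRing L] (c : ℕ → ℤ) (m : ℕ) (x : L) : L :=
  ∑ k ∈ range m, (c k : L) * x ^ k

lemma v_ev (c : ℕ → ℤ) (m : ℕ) {x : ℂ} (hx : v x ≤ 1) : v (ev c m x) ≤ 1 :=
  v.map_sum_le fun k _ => v_mul_le v (v_int v _) (v_pow_le v hx k)

lemma v_ev_sub (c : ℕ → ℤ) (m : ℕ) {x y : ℂ} (hx : v x ≤ 1) (hy : v y ≤ 1) :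
    v (ev c m x - ev c m y) ≤ v (x - y) := by
  unfold ev
  rw [← sum_sub_distrib]
  refine v.map_sum_le fun k _ => ?_
  rw [← mul_sub]
  exact v_mul_le v (v_int v _) (v_pow_sub v hx hy k)

lemma v_aeval (f : Polynomial ℤ) {x : ℂ} (hx : v x ≤ 1) : v (Polynomial.aeval x f) ≤ 1 := by
  rw [Polynomial.aeval_eq_sum_range]
  refine v.map_sum_le fun k _ => ?_
  rw [zsmul_eq_mul]
  exact v_mul_le v (v_int v _) (v_pow_le v hx k)

lemma add_pow_prime_v {p : ℕ} (hp : p.Prime) {δ : ℂ} (hδ : v δ ≤ 1) :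
    ∃ r, v r ≤ 1 ∧ (1 + δ) ^ p - 1 = δ ^ p + p * δ * r := by
  refine ⟨∑ k ∈ Ioo 0 p, δ ^ (k - 1) * 1 ^ (p - k - 1) * ((p.choose k / p : ℕ) : ℂ), ?_, ?_⟩
  · refine v.map_sum_le fun k _ => v_mul_le v ?_ (v_nat v _)
    simpa using v_pow_le v hδ (k - 1)
  · rw [add_comm 1 δ, add_pow_prime_eq hp]; ring

lemma v_zeta {p : ℕ} (hp : p.Prime) {ζ : ℂ} (h1 : ζ ^ p = 1) (h2 : ζ ≠ 1) :
    v (ζ - 1) ^ (p - 1) ≤ v (p : ℂ) := by
  have h3 : v (ζ - 1) ≤ 1 := v.map_sub_le (v_root v hp.pos h1).le (by simp)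
  obtain ⟨r, hr, h⟩ := add_pow_prime_v v hp h3
  rw [add_sub_cancel, h1, sub_self] at h
  have h4 : (ζ - 1) ^ (p - 1) = -r * p := by
    have h5 : (ζ - 1) ^ p = (ζ - 1) ^ (p - 1) * (ζ - 1) := by
      rw [← pow_succ, Nat.sub_add_cancel hp.pos]
    apply mul_right_cancel₀ (sub_ne_zero.mpr h2)
    rw [← h5]; linear_combination -h
  rw [← map_pow, h4]
  exact v_mul_le v (by simpa using hr) le_rfl

lemma v_zeta_lt {p : ℕ} (hp : p.Prime) (hv : v (p : ℂ) < 1) {ζ : ℂ} (h1 : ζ ^ p = 1) :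
    v (ζ - 1) < 1 := by
  by_cases h2 : ζ = 1
  · simp [h2]
  by_contra h
  exact absurd ((one_le_pow_of_one_le' (not_lt.mp h) _).trans (v_zeta v hp h1 h2)) (not_le.mpr hv)

lemma v_pow_prime {p : ℕ} (hp : p.Prime) {a : Γ} (ha : a ^ (p - 1) ≤ v (p : ℂ)) (ha1 : a ≤ 1)
    {y : ℂ} (hy : v (y - 1) ≤ a) (N : ℕ) : v (y ^ p ^ N - 1) ≤ v (p : ℂ) ^ N * v (y - 1) := by
  induction N with
  | zero => simp
  | succ N ih =>
    have h0 : v (y ^ p ^ N - 1) ≤ a :=
      ih.trans ((mul_le_mul' (pow_le_one' (v_nat v p) N) hy).trans (by simp))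
    obtain ⟨r, hr, h⟩ := add_pow_prime_v v hp (h0.trans ha1)
    rw [add_sub_cancel, ← pow_mul, ← pow_succ] at h
    rw [h]
    have h1 : v (p : ℂ) * v (y ^ p ^ N - 1) ≤ v (p : ℂ) ^ (N + 1) * v (y - 1) := by
      rw [pow_succ', mul_assoc]; exact mul_le_mul' le_rfl ih
    refine (v.map_add_le ?_ ?_).trans h1
    · rw [map_pow, ← pow_sub_one_mul hp.ne_zero]
      exact mul_le_mul' ((pow_le_pow_left' h0 _).trans ha) le_rfl
    · rw [mul_comm]
      exact v_mul_le v hr (by rw [map_mul])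

lemma v_pow_n {p : ℕ} (hp : p.Prime) (hv : v (p : ℂ) < 1) {ζ : ℂ} (h1 : ζ ^ p = 1) (h2 : ζ ≠ 1)
    {y : ℂ} (hy : v (y - 1) ≤ v (ζ - 1)) {n : ℕ} (hn : 0 < n) : v (y ^ n - 1) < v (n : ℂ) := by
  obtain ⟨N, m, hm, rfl⟩ := Nat.exists_eq_pow_mul_and_not_dvd hn.ne' p hp.ne_one
  have h3 := v_zeta_lt v hp hv h1
  have h4 := v_pow_prime v hp (v_zeta v hp h1 h2) h3.le hy N
  have h5 : v y ≤ 1 := by
    have := v.map_add_le (hy.trans h3.le) (show v 1 ≤ 1 by simp)
    simpa using this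
  have h6 := v_pow_sub v (v_pow_le v h5 (p ^ N)) (show v 1 ≤ 1 by simp) m
  have h7 : v (m : ℂ) = 1 := by
    have := v_coprime v hv (m := m) (Nat.isCoprime_iff_coprime.mpr ((Nat.Prime.coprime_iff_not_dvd hp).mpr hm))
    simpa using this
  rw [one_pow, ← pow_mul] at h6
  have h8 : v (p : ℂ) ^ N ≠ 0 := pow_ne_zero _ (by simpa using hp.ne_zero)
  push_cast
  rw [map_mul, h7, map_pow]
  exact (h6.trans h4).trans_lt (mul_lt_mul_of_pos_left (hy.trans_lt h3) (zero_lt_iff.mpr h8))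

/-- principal units -/
def One (z : ℂ) : Prop := v (z - 1) < 1

variable {v}

lemma One.eq {z : ℂ} (h : One v z) : v z = 1 := by
  have := v.map_one_add_of_lt h
  simpa using this

lemma One.one : One v 1 := by simp [One]

lemma One.mul {x y : ℂ} (hx : One v x) (hy : One v y) : One v (x * y) := by
  unfold One
  rw [show x * y - 1 = x * (y - 1) + (x - 1) by ring]
  exact v.map_add_lt ((v_mul_le v hx.eq.le le_rfl).trans_lt hy) hx

lemma One.inv {x : ℂ} (hx : One v x) : One v x⁻¹ := by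
  have h0 : x ≠ 0 := by
    rintro rfl
    simpa using hx.eq
  unfold One
  rw [show x⁻¹ - 1 = x⁻¹ * (1 - x) by field_simp, map_mul, map_inv₀, hx.eq, v.map_sub_swap]
  simpa [One] using hx

lemma One.pow {x : ℂ} (hx : One v x) (k : ℕ) : One v (x ^ k) := by
  induction k with
  | zero => simpa using One.one
  | succ k ih => rw [pow_succ]; exact ih.mul hx

lemma One.zpow {x : ℂ} (hx : One v x) (k : ℤ) : One v (x ^ k) := by
  obtain ⟨k, rfl | rfl⟩ := k.eq_nat_or_neg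
  · simpa using hx.pow k
  · simpa using (hx.pow k).inv

lemma One.prod {ι : Type} {s : Finset ι} {f : ι → ℂ} (h : ∀ i ∈ s, One v (f i)) :
    One v (∏ i ∈ s, f i) :=
  Finset.prod_induction f (One v) (fun _ _ => One.mul) One.one h

lemma One.div_of {x y : ℂ} (h : v (x - y) < v y) : One v (x / y) := by
  have h0 : y ≠ 0 := by
    rintro rfl
    simp at h
  unfold One
  rw [show x / y - 1 = (x - y) / y by field_simp, map_div₀]
  exact (div_lt_one₀ (zero_lt_iff.mpr (by simpa using h0))).mpr h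

/-- A polynomial without zeros near `b` is almost constant near `b`. -/
lemma one_of_roots (H : Polynomial ℂ) (hH : H ≠ 0) (a b : ℂ)
    (h : ∀ ρ, H.eval ρ = 0 → v (a - b) < v (b - ρ)) : One v (H.eval a / H.eval b) := by
  have hs : H.Splits := IsAlgClosed.splits H
  rw [hs.eval_eq_prod_roots, hs.eval_eq_prod_roots,
    mul_div_mul_left _ _ (Polynomial.leadingCoeff_ne_zero.mpr hH), ← Multiset.prod_map_div]
  refine Multiset.prod_induction (One v) _ (fun _ _ => One.mul) One.one ?_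
  intro z hz
  obtain ⟨ρ, hρ, rfl⟩ := Multiset.mem_map.mp hz
  refine One.div_of ?_
  rw [sub_sub_sub_cancel_right]
  exact h ρ (Polynomial.isRoot_of_mem_roots hρ)

/-- a root of unity that is a principal unit at two different primes is trivial -/
lemma eq_one_of_two {Γ' : Type} [LinearOrderedCommGroupWithZero Γ'] {v' : Valuation ℂ Γ'}
    {p q : ℕ} (hp : p.Prime) (hq : q.Prime) (hpq : p ≠ q) (h1 : v (p : ℂ) < 1)
    (h2 : v' (q : ℂ) < 1) {z : ℂ} {m : ℕ} (hm : 0 < m) (hz : z ^ m = 1) (o1 : One v z)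
    (o2 : One v' z) : z = 1 := by
  by_contra hne
  have hfin : IsOfFinOrder z := isOfFinOrder_iff_pow_eq_one.mpr ⟨m, hm, hz⟩
  have hord : orderOf z ≠ 1 := by simpa using hne
  obtain ⟨l, hl, k, hk⟩ := Nat.exists_prime_and_dvd hord
  have hpos := hfin.orderOf_pos
  have hy1 : (z ^ k) ^ l = 1 := by rw [← pow_mul, mul_comm, ← hk, pow_orderOf_eq_one]
  have hy2 : z ^ k ≠ 1 := by
    have hk0 : 0 < k := Nat.pos_of_ne_zero (by rintro rfl; omega)
    exact pow_ne_one_of_lt_orderOf hk0.ne' (by rw [hk]; nlinarith [hl.two_le])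
  have hsum : (l : ℂ) = ∑ i ∈ range l, (1 - (z ^ k) ^ i) := by
    rw [sum_sub_distrib, geom_sum_eq hy2, hy1]; simp
  have key : ∀ {Γ'' : Type} [LinearOrderedCommGroupWithZero Γ''] (w : Valuation ℂ Γ'') (r : ℕ),
      r.Prime → w (r : ℂ) < 1 → One w z → r = l := by
    intro Γ'' _ w r hr hw ho
    by_contra hrl
    have h3 : w (l : ℂ) < 1 := by
      rw [hsum]
      refine w.map_sum_lt one_ne_zero fun i _ => ?_
      rw [w.map_sub_swap]
      exact (ho.pow k).pow i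
    have := v_coprime w hw (m := l)
      (Nat.isCoprime_iff_coprime.mpr ((Nat.coprime_primes hr hl).mpr hrl))
    rw [Int.cast_natCast] at this
    exact absurd this h3.ne
  exact hpq ((key v p hp h1 o1).trans (key v' q hq h2 o2).symm)

lemma isIntegral_of_val {z : ℂ} (h : ∀ V : ValuationSubring ℂ, V.valuation z ≤ 1) :
    IsIntegral ℤ z := by
  have h1 : z ∈ (integralClosure (Subring.closure (∅ : Set ℂ)) ℂ).toSubring := by
    rw [← iInf_valuationSubring_superset]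
    exact Subring.mem_iInf.mpr fun V => (V.1.valuation_le_one_iff z).mp (h V.1)
  have h2 : IsIntegral (Subring.closure (∅ : Set ℂ)) z := h1
  have : Algebra.IsIntegral ℤ (Subring.closure (∅ : Set ℂ)) := ⟨fun x => by
    obtain ⟨k, hk⟩ := Subring.mem_bot.mp (Subring.closure_empty.le x.2)
    have : x = algebraMap ℤ _ k := Subtype.ext (by simpa using hk.symm)
    rw [this]
    exact isIntegral_algebraMap⟩
  exact isIntegral_trans z h2

lemma exists_val {p : ℕ} (hp : p.Prime) : ∃ V : ValuationSubring ℂ, V.valuation (p : ℂ) < 1 := by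
  by_contra h
  push Not at h
  have h1 : IsIntegral ℤ ((p : ℂ)⁻¹) := isIntegral_of_val fun V => by
    rw [map_inv₀]; exact inv_le_one_of_one_le₀ (h V)
  have h2 : IsIntegral ℤ ((p : ℚ)⁻¹) := by
    rw [← isIntegral_algebraMap_iff (B := ℂ) (algebraMap ℚ ℂ).injective]
    simpa using h1
  obtain ⟨k, hk⟩ := IsIntegrallyClosed.isIntegral_iff.mp h2
  have h3 : (k : ℚ) * p = 1 := by
    simp only [eq_intCast] at hk
    rw [hk]; exact inv_mul_cancel₀ (by exact_mod_cast hp.ne_zero)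
  have h4 : k * (p : ℤ) = 1 := by exact_mod_cast h3
  have := Int.eq_one_or_neg_one_of_mul_eq_one' h4
  have := hp.two_le
  omega

end Vale.Agent.P033
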